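import Vale.Agent.P207.N3.H566.LiftS
import Vale.Agent.P207.N3.H465.Dist
import Vale.Agent.P207.H248.ExpA
import Vale.Agent.P207.Q.H892.Meas

/-!
# P207 / N3 (helper566): the exponential maps of the covering space are diffeomorphisms

`S = sys g h`, base point `m`, covering `S.e m : EV n → M`. `Exp (S.cov m) x u = ex S m x.q (Lf x.f u)`,
it is a diffeomorphism in `u`; its inverse `Log` is jointly continuous, with jointly continuous
derivatives.
-/

open scoped Manifold ContDiff ENNReal Topology
open Bundle MeasureTheory Set Filter Topology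

noncomputable section

set_option maxSynthPendingDepth 3
set_option linter.unusedSectionVars false

namespace Vale.Agent.P207.N3.H566

open Vale.Agent.P255 (RMetric coefIn Gam Riem IsGeo Metric Npc ExpSys toMetric geo expg cc trans
  IsGeodesic coefL chris chrisB IsMetricOn covD)
open Vale.Agent.P207 Vale.Agent.P207.Q Vale.Agent.P207.Q.Fl
open Vale.Agent.P207.N3.H465 (Deck PB ex lg dd)
open Vale.Agent.P207.Q.H892 (Lf Lf_apply inner_Lf exists_frame)

section Gen

variable {E V W : Type*} [NormedAddCommGroup V] [NormedSpace ℝ V] [NormedAddCommGroup W]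
  [NormedSpace ℝ W] [CompleteSpace V] [NormedAddCommGroup E] [NormedSpace ℝ E] [CompleteSpace E]

/-- a continuous solution of a smooth equation is smooth -/
theorem contDiffAt_implicit {Φ : E × V → W} {w : E → V} {y : E} (hw : ContinuousAt w y)
    (hΦ : ContDiffAt ℝ ∞ Φ (y, w y)) {L : V ≃L[ℝ] W}
    (hL : HasFDerivAt (fun v => Φ (y, v)) (L : V →L[ℝ] W) (w y))
    (h : ContDiffAt ℝ ∞ (fun z => Φ (z, w z)) y) : ContDiffAt ℝ ∞ w y := by
  set Φ' := fderiv ℝ Φ (y, w y) with hΦ'
  have hd : HasFDerivAt Φ Φ' (y, w y) := (hΦ.differentiableAt (by simp)).hasFDerivAt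
  have h1 : Φ'.comp (ContinuousLinearMap.inr ℝ E V) = (L : V →L[ℝ] W) := by
    have h2 : HasFDerivAt (fun v : V => (y, v)) (ContinuousLinearMap.inr ℝ E V) (w y) :=
      hasFDerivAt_prodMk_right y (w y)
    exact (HasFDerivAt.comp (w y) hd h2).unique hL
  set e : (E × V) ≃L[ℝ] (E × W) := ContinuousLinearEquiv.skewProd
    (ContinuousLinearEquiv.refl ℝ E) L (Φ'.comp (ContinuousLinearMap.inl ℝ E V)) with he
  have h3 : HasFDerivAt (fun q : E × V => (q.1, Φ q)) (e : (E × V) →L[ℝ] (E × W)) (y, w y) := by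
    have h4 : (e : (E × V) →L[ℝ] (E × W)) = (ContinuousLinearMap.fst ℝ E V).prod Φ' := by
      refine ContinuousLinearMap.ext fun q => Prod.ext rfl ?_
      change L q.2 + Φ' (q.1, 0) = Φ' q
      have h5 : L q.2 = Φ' (0, q.2) := by
        have := congrArg (fun A : V →L[ℝ] W => A q.2) h1
        exact this.symm
      rw [h5, ← map_add, Prod.mk_add_mk, zero_add, add_zero]
    rw [h4]
    exact hasFDerivAt_fst.prodMk hd
  have h6 : ContDiffAt ℝ ∞ (fun z => (z, w z)) y := by
    refine contDiffAt_of_comp (F := fun q : E × V => (q.1, Φ q)) (u := fun z => (z, w z)) (y := y)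
      (continuousAt_id.prodMk hw) (contDiffAt_fst.prodMk hΦ) (L := e) h3 ?_
    exact contDiffAt_id.prodMk h
  exact h6.snd

theorem exists_equiv_of_injective {F : Type*} [NormedAddCommGroup F] [NormedSpace ℝ F]
    [FiniteDimensional ℝ F] (L : F →L[ℝ] F) (h : ∀ w, L w = 0 → w = 0) :
    ∃ L' : F ≃L[ℝ] F, (L' : F →L[ℝ] F) = L := by
  have h1 : Function.Injective (L : F →ₗ[ℝ] F) := by
    rw [← LinearMap.ker_eq_bot, LinearMap.ker_eq_bot']
    exact h
  exact ⟨(LinearEquiv.ofInjectiveEndo (L : F →ₗ[ℝ] F) h1).toContinuousLinearEquiv,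
    ContinuousLinearMap.ext fun v => rfl⟩

/-- the inverse of a continuous family of bijections is continuous if its norm is -/
theorem continuous_inv_of_norm {X F : Type*} [TopologicalSpace X] [NormedAddCommGroup F]
    [NormedSpace ℝ F] [FiniteDimensional ℝ F] {E L : X → F → F}
    (hE : Continuous fun z : X × F => E z.1 z.2) (h1 : ∀ x u, L x (E x u) = u)
    (h2 : ∀ x q, E x (L x q) = q) (hn : Continuous fun z : X × F => ‖L z.1 z.2‖) :
    Continuous fun z : X × F => L z.1 z.2 := by
  have : ProperSpace F := FiniteDimensional.proper ℝ F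
  rw [continuous_iff_continuousAt]
  rintro ⟨x₀, q₀⟩
  rw [ContinuousAt, tendsto_def]
  intro U hU
  obtain ⟨U', hU'U, hU'o, hU'm⟩ := mem_nhds_iff.1 hU
  set R := ‖L x₀ q₀‖ + 1 with hR
  have hK : IsCompact (Metric.closedBall (0 : F) R \ U') :=
    (isCompact_closedBall _ _).diff hU'o
  have hO : IsOpen {z : (X × F) × F | E z.1.1 z.2 ≠ z.1.2} := by
    refine isOpen_ne_fun ?_ ?_
    · exact hE.comp ((continuous_fst.comp continuous_fst).prodMk continuous_snd)
    · exact continuous_snd.comp continuous_fst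
  have hsub : ({(x₀, q₀)} : Set (X × F)) ×ˢ (Metric.closedBall (0 : F) R \ U') ⊆
      {z : (X × F) × F | E z.1.1 z.2 ≠ z.1.2} := by
    rintro ⟨z, w⟩ ⟨hz, hw1, hw2⟩ heq
    obtain rfl : z = (x₀, q₀) := hz
    apply hw2
    have h3 : L x₀ q₀ = w := by
      have h4 : E x₀ w = q₀ := heq
      rw [← h4, h1]
    rw [← h3]
    exact hU'm
  obtain ⟨N, N', hNo, -, hN, hN', hNN⟩ := generalized_tube_lemma isCompact_singleton hK hO hsub
  have h3 : ∀ᶠ z : X × F in 𝓝 (x₀, q₀), ‖L z.1 z.2‖ < R :=
    hn.continuousAt.eventually (gt_mem_nhds (by rw [hR]; exact lt_add_one _))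
  filter_upwards [h3, hNo.mem_nhds (singleton_subset_iff.1 hN)] with z hz1 hz2
  by_contra hcon
  have h4 : L z.1 z.2 ∈ Metric.closedBall (0 : F) R \ U' := by
    refine ⟨?_, fun hin => hcon (hU'U hin)⟩
    rw [mem_closedBall_zero_iff]
    exact hz1.le
  exact hNN (a := (z, L z.1 z.2)) ⟨hz2, hN' h4⟩ (h2 z.1 z.2)

end Gen

variable {n : ℕ} {M : Type} [TopologicalSpace M] [ChartedSpace (EV n) M]

/-- lifts of local diffeomorphisms are smooth -/
theorem LocDif.sm_lift {p p' : EV n → M} (hp : LocDif p) (hp' : LocDif p') {F : EV n → EV n}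
    (hF : Continuous F) (h : ∀ z, p (F z) = p' z) (z : EV n) : Sm F z := by
  have ha : p (F z) ∈ (chartAt (EV n) (p (F z))).source := mem_chart_source _ _
  refine hp.sm_of_comp (a := p (F z)) (Eventually.of_forall fun _ => hF.continuousAt) ha ?_
  have h1 : (fun w => chartAt (EV n) (p (F z)) (p (F w))) =
      fun w => chartAt (EV n) (p (F z)) (p' w) := by
    funext w
    rw [h w]
  rw [h1]
  rw [h z] at ha ⊢
  exact hp'.sm ha

theorem LocDif.contDiff_lift {p p' : EV n → M} (hp : LocDif p) (hp' : LocDif p')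
    {F : EV n → EV n} (hF : Continuous F) (h : ∀ z, p (F z) = p' z) : ContDiff ℝ ∞ F :=
  contDiff_iff_contDiffAt.2 fun z => (hp.sm_lift hp' hF h z).contDiffAt

/-- lifts of local diffeomorphisms have invertible derivatives -/
theorem LocDif.exists_equiv {p p' : EV n → M} (hp : LocDif p) (hp' : LocDif p')
    {F : EV n → EV n} (hF : Continuous F) (h : ∀ z, p (F z) = p' z) (z : EV n) :
    ∃ L : EV n ≃L[ℝ] EV n, HasFDerivAt F (L : EV n →L[ℝ] EV n) z := by
  have hd := ((hp.sm_lift hp' hF h z).differentiableAt).hasFDerivAt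
  have ha : p (F z) ∈ (chartAt (EV n) (p (F z))).source := mem_chart_source _ _
  obtain ⟨L1, h1⟩ := hp.inv (p (F z)) (F z) ha
  obtain ⟨L2, h2⟩ := hp'.inv (p (F z)) z (by rw [← h z]; exact ha)
  have h3 := HasFDerivAt.comp z h1 hd
  have h4 : ((fun w => chartAt (EV n) (p (F z)) (p w)) ∘ F) =
      fun w => chartAt (EV n) (p (F z)) (p' w) := by
    funext w
    change chartAt (EV n) (p (F z)) (p (F w)) = _
    rw [h w]
  rw [h4] at h3
  have h5 := h3.unique h2
  refine ⟨L2.trans L1.symm, ?_⟩
  have h6 : ((L2.trans L1.symm : EV n ≃L[ℝ] EV n) : EV n →L[ℝ] EV n) = fderiv ℝ F z := by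
    refine ContinuousLinearMap.ext fun v => ?_
    change L1.symm (L2 v) = fderiv ℝ F z v
    have h7 : L1 (fderiv ℝ F z v) = L2 v := congrArg (fun A : EV n →L[ℝ] EV n => A v) h5
    rw [← h7, L1.symm_apply_apply]
  rw [h6]
  exact hd

theorem LocDif.comp_equiv {p : EV n → M} (hp : LocDif p) (L : EV n ≃L[ℝ] EV n) :
    LocDif (fun v => p (L v)) where
  cont := hp.cont.comp L.continuous
  smooth a q hq := ContDiffAt.comp (g := fun z => chartAt (EV n) a (p z)) (f := L) q
    (hp.smooth a (L q) hq) L.contDiff.contDiffAt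
  inv a q hq := by
    obtain ⟨L1, h1⟩ := hp.inv a (L q) hq
    exact ⟨L.trans L1, HasFDerivAt.comp (g := fun z => chartAt (EV n) a (p z)) (f := L) q h1
      L.hasFDerivAt⟩

variable [IsManifold 𝓘(ℝ, EV n) ∞ M] {g : RMetric (EV n) M}

theorem Lf_inj (f : Fr g) (w : EV n) (hw : Lf f w = 0) : w = 0 := by
  have h1 := inner_Lf f w w
  rw [hw, map_zero] at h1
  exact inner_self_eq_zero.1 h1.symm

/-- the linear map of a frame, as an equivalence -/
def LfE (f : Fr g) : EV n ≃L[ℝ] EV n := (exists_equiv_of_injective (Lf f) (Lf_inj f)).choose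

theorem LfE_apply (f : Fr g) (u : EV n) : LfE f u = Lf f u :=
  congrArg (fun A : EV n →L[ℝ] EV n => A u)
    (exists_equiv_of_injective (Lf f) (Lf_inj f)).choose_spec

theorem LfE_sum (f : Fr g) (u : EV n) : LfE f u = ∑ i, u i • f.e i := by
  rw [LfE_apply, Lf_apply]

variable [Nonempty (Fr g)] [NeZero n] [CompactSpace M] [T2Space M]

theorem pt_hflow (ξ : Fin n → ℝ) (f : Fr g) :
    (hflow g ξ f).pt = expg (mt g) f.pt (∑ i, ξ i • f.e i) := H248.pt_hfl_one ξ f

theorem at_const (f : Fr g) {E : Type} [NormedAddCommGroup E] [NormedSpace ℝ E]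
    [FiniteDimensional ℝ E] (y : E) : (frSys g).dif.At (fun _ : E => f) y :=
  (frSys g).dif.At_const (u := fun _ : ℝ => f) (x := (0 : ℝ)) (CSys.at_const f) y

/-- the exponential map of a metric of nonpositive curvature is a local diffeomorphism -/
theorem locDif_expg (h : Npc (mt g)) (m : M) : LocDif (expg (mt g) m) where
  cont := P255.continuous_expg (mt g) m
  smooth a q hq := by
    obtain ⟨f, hf⟩ := exists_frame g m
    have h1 : ∀ v : EV n, expg (mt g) m v =
        (hflow g (fun i => (LfE f).symm v i) f).pt := fun v => by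
      rw [pt_hflow]
      have h2 := LfE_sum f ((LfE f).symm v)
      rw [ContinuousLinearEquiv.apply_symm_apply] at h2
      rw [← h2, hf]
    have h3 : Sm (fun v : EV n => (fun i => (LfE f).symm v i : Fin n → ℝ)) q :=
      sm_coord (v := fun v => (LfE f).symm v) (Sm.of_contDiff (LfE f).symm.contDiff q)
    have h4 : (frSys g).dif.At (fun v : EV n => hflow g (fun i => (LfE f).symm v i) f) q :=
      hflow_plot g (at_const f q) h3
    have ha : (hflow g (fun i => (LfE f).symm q i) f).pt ∈ (chartAt (EV n) a).source := by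
      rw [← h1]
      exact hq
    have h5 := (sm_pt h4 ha).contDiffAt
    have h6 : (fun z => chartAt (EV n) a (expg (mt g) m z)) =
        fun z => chartAt (EV n) a (hflow g (fun i => (LfE f).symm z i) f).pt := by
      funext z
      rw [h1 z]
    rw [h6]
    exact h5
  inv a q hq := by
    have hI := ((P255.isExp_expg (mt g)).rauchAt h m).injAt
    obtain ⟨L, hL⟩ := exists_equiv_of_injective
      (fderiv ℝ (fun z => chartAt (EV n) a (expg (mt g) m z)) q) (fun w hw => hI q w a hq hw)
    refine ⟨L, ?_⟩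
    rw [hL]
    exact ((P255.contDiffAt_expg (mt g) m q a hq).differentiableAt (by simp)).hasFDerivAt

section Main

variable (h : Npc (mt g)) (m : M)

theorem locDif_e (m : M) : LocDif ((sys g h).e m) := locDif_expg h m

theorem contDiff_ex (q : EV n) : ContDiff ℝ ∞ (ex (sys g h) m q) :=
  (locDif_e h m).contDiff_lift (locDif_e h ((sys g h).e m q)) (H465.continuous_ex _ m q)
    (fun z => H465.e_ex (sys g h) m q z)

theorem contDiff_lg (q : EV n) : ContDiff ℝ ∞ (lg (sys g h) m q) :=
  (locDif_e h ((sys g h).e m q)).contDiff_lift (locDif_e h m) (H465.continuous_lg _ m q)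
    (fun z => H465.e_lg (sys g h) m q z)

theorem ex_equiv (q z : EV n) : ∃ L : EV n ≃L[ℝ] EV n,
    HasFDerivAt (ex (sys g h) m q) (L : EV n →L[ℝ] EV n) z :=
  (locDif_e h m).exists_equiv (locDif_e h ((sys g h).e m q)) (H465.continuous_ex _ m q)
    (fun z => H465.e_ex (sys g h) m q z) z

theorem lg_equiv (q z : EV n) : ∃ L : EV n ≃L[ℝ] EV n,
    HasFDerivAt (lg (sys g h) m q) (L : EV n →L[ℝ] EV n) z :=
  (locDif_e h ((sys g h).e m q)).exists_equiv (locDif_e h m) (H465.continuous_lg _ m q)
    (fun z => H465.e_lg (sys g h) m q z) z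

/-- the covering space -/
abbrev XM (h : Npc (mt g)) (m : M) : Type := XF g ((sys g h).e m)

theorem e_Exp (x : XM h m) (u : EV n) : (sys g h).e m (Exp ((sys g h).cov m) x u) =
    (sys g h).e x.f.pt (LfE x.f u) := by
  have h1 : (sys g h).e m (Exp ((sys g h).cov m) x u) =
      (hflow g (fun i => u i) x.f).pt := by
    have h2 := PB.e_q (lift ((sys g h).cov m) (fun i => u i) x)
    rw [f_lift] at h2
    exact h2
  rw [h1, pt_hflow, LfE_sum]
  rfl

theorem Exp_eq (x : XM h m) (u : EV n) :
    Exp ((sys g h).cov m) x u = ex (sys g h) m x.q (LfE x.f u) := by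
  refine H465.eq_ex (sys g h) m x.q (F := fun u => Exp ((sys g h).cov m) x u)
    (G := fun u => LfE x.f u) ?_ (LfE x.f).continuous ?_ (a₀ := (0 : EV n)) ?_ u
  · exact (continuous_Exp ((sys g h).cov m)).comp (Continuous.prodMk_right x)
  · intro v
    have h1 : (sys g h).e m x.q = x.f.pt := PB.e_q x
    rw [e_Exp, h1]
  · change Exp ((sys g h).cov m) x 0 = ex (sys g h) m x.q (LfE x.f 0)
    rw [Exp_zero, map_zero, H465.ex_zero]

/-- the inverse of the exponential map -/
def Log (x : XM h m) (q : EV n) : EV n := (LfE x.f).symm (lg (sys g h) m x.q q)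

theorem Log_Exp (x : XM h m) (u : EV n) : Log h m x (Exp ((sys g h).cov m) x u) = u := by
  rw [Log, Exp_eq, H465.lg_ex, ContinuousLinearEquiv.symm_apply_apply]

theorem Exp_Log (x : XM h m) (q : EV n) : Exp ((sys g h).cov m) x (Log h m x q) = q := by
  rw [Exp_eq, Log, ContinuousLinearEquiv.apply_symm_apply, H465.ex_lg]

theorem Exp_injective (x : XM h m) : Function.Injective (Exp ((sys g h).cov m) x) :=
  Function.LeftInverse.injective (Log_Exp h m x)

theorem Exp_surjective (x : XM h m) : Function.Surjective (Exp ((sys g h).cov m) x) :=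
  Function.RightInverse.surjective (Exp_Log h m x)

theorem Exp_bijective (x : XM h m) : Function.Bijective (Exp ((sys g h).cov m) x) :=
  ⟨Exp_injective h m x, Exp_surjective h m x⟩

theorem ip_LfE (f : Fr g) (u v : EV n) : (sys g h).ip f.pt (LfE f u) (LfE f v) = inner ℝ u v := by
  have h1 : (sys g h).ip f.pt (LfE f u) (LfE f v) =
      (g.inner f.pt (LfE f u) (LfE f v) : ℝ) := ip_eq g f.pt _ _
  rw [h1, LfE_apply, LfE_apply]
  exact inner_Lf f u v

theorem nrm_LfE (f : Fr g) (u : EV n) : (sys g h).nrm f.pt (LfE f u) = ‖u‖ := by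
  unfold ExpSys.nrm
  rw [ip_LfE, real_inner_self_eq_norm_sq, Real.sqrt_sq (norm_nonneg _)]

/-- **the exponential map is a radial isometry** -/
theorem dd_Exp (x : XM h m) (u : EV n) :
    dd (sys g h) m x.q (Exp ((sys g h).cov m) x u) = ‖u‖ := by
  have h1 : (sys g h).e m x.q = x.f.pt := PB.e_q x
  rw [Exp_eq, H465.dd_ex, h1, nrm_LfE]

theorem norm_Log (x : XM h m) (q : EV n) : ‖Log h m x q‖ = dd (sys g h) m x.q q := by
  rw [← dd_Exp h m x, Exp_Log]

/-- the derivative of the exponential map is invertible -/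
theorem Exp_equiv (x : XM h m) (u : EV n) : ∃ L : EV n ≃L[ℝ] EV n,
    HasFDerivAt (Exp ((sys g h).cov m) x) (L : EV n →L[ℝ] EV n) u := by
  obtain ⟨L, hL⟩ := ex_equiv h m x.q (LfE x.f u)
  refine ⟨(LfE x.f).trans L, ?_⟩
  have h1 : Exp ((sys g h).cov m) x = (ex (sys g h) m x.q) ∘ (LfE x.f) :=
    funext fun u => Exp_eq h m x u
  rw [h1]
  exact HasFDerivAt.comp u hL (LfE x.f).hasFDerivAt

theorem continuous_Log_right (x : XM h m) : Continuous (Log h m x) :=
  (LfE x.f).symm.continuous.comp (H465.continuous_lg _ _ _)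

theorem continuous_norm_Log : Continuous fun z : XM h m × EV n => ‖Log h m z.1 z.2‖ := by
  have h1 : (fun z : XM h m × EV n => ‖Log h m z.1 z.2‖) =
      fun z : XM h m × EV n => dd (sys g h) m z.1.q z.2 := funext fun z => norm_Log h m z.1 z.2
  rw [h1]
  have h2 := H465.continuous_dd (sys g h) m
  have h3 : Continuous fun z : XM h m × EV n => (z.1.q, z.2) :=
    (PB.continuous_q.comp continuous_fst).prodMk continuous_snd
  have h4 := h2.comp h3
  exact h4

theorem continuous_ExpM : Continuous fun z : XM h m × EV n => Exp ((sys g h).cov m) z.1 z.2 :=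
  continuous_Exp ((sys g h).cov m)

/-- the inverse of the exponential map is jointly continuous -/
theorem continuous_Log : Continuous fun q : XM h m × EV n => Log h m q.1 q.2 :=
  continuous_inv_of_norm (X := XM h m) (F := EV n) (E := Exp ((sys g h).cov m)) (L := Log h m)
    (continuous_ExpM h m) (Log_Exp h m) (Exp_Log h m) (continuous_norm_Log h m)

/-- the inverse of the exponential map is smooth along plots -/
theorem contDiffAt_Log {E : Type} [NormedAddCommGroup E] [NormedSpace ℝ E]
    [FiniteDimensional ℝ E] {u : E → XM h m} {v : E → EV n} {y : E}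
    (hu : (difX g ((sys g h).e m)).At u y) (hv : Sm v y) :
    ContDiffAt ℝ ∞ (fun z => Log h m (u z) (v z)) y := by
  have : CompleteSpace E := FiniteDimensional.complete ℝ E
  have hp := locDif_e h m
  obtain ⟨L, hL⟩ := Exp_equiv h m (u y) (Log h m (u y) (v y))
  refine contDiffAt_implicit (Φ := fun q : E × EV n => Exp ((sys g h).cov m) (u q.1) q.2)
    ?_ ?_ (L := L) hL ?_
  · exact ContinuousAt.comp (g := fun q : XM h m × EV n => Log h m q.1 q.2)
      (f := fun z => (u z, v z)) (continuous_Log h m).continuousAt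
      ((difX_cont hu).prodMk hv.continuousAt)
  · have h1 : (difX g ((sys g h).e m)).At (fun q : E × EV n => u q.1)
        (y, Log h m (u y) (v y)) :=
      (difX g ((sys g h).e m)).comp (u := u) (g := Prod.fst)
        (x := ((y, Log h m (u y) (v y)) : E × EV n)) hu (Sm.of_contDiff contDiff_fst _)
    have h2 : Sm (fun q : E × EV n => q.2) (y, Log h m (u y) (v y)) :=
      Sm.of_contDiff contDiff_snd _
    exact (smOn_Exp hp ((sys g h).cov m) h1 h2 (mem_univ _)).contDiffAt
  · have h1 : (fun z => Exp ((sys g h).cov m) (u z) (Log h m (u z) (v z))) = v :=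
      funext fun z => Exp_Log h m (u z) (v z)
    change ContDiffAt ℝ ∞ (fun z => Exp ((sys g h).cov m) (u z) (Log h m (u z) (v z))) y
    rw [h1]
    exact hv.contDiffAt

theorem smOn_Log : SmOn (difX g ((sys g h).e m)) (fun x q => Log h m x q) univ := by
  intro E _ _ _ u v y hu hv _
  filter_upwards [(difX g ((sys g h).e m)).open' hu, hv.eventually] with z hz1 hz2
  exact contDiffAt_Log h m hz1 hz2

/-- **the inverse of the exponential map: jointly continuous derivatives** -/
theorem jc_Log : JC (fun (x : XM h m) q => Log h m x q) univ :=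
  SmOn.jc (D := difX g ((sys g h).e m)) (sec_difX (locDif_e h m)) (smOn_Log h m) isOpen_univ

theorem jc_ExpM : JC (fun (x : XM h m) u => Exp ((sys g h).cov m) x u) univ :=
  jc_Exp (locDif_e h m) ((sys g h).cov m)

theorem contDiff_Exp (x : XM h m) : ContDiff ℝ ∞ (Exp ((sys g h).cov m) x) := by
  have h1 := (jc_ExpM h m).smooth x
  have h2 : {u : EV n | (x, u) ∈ (univ : Set (XM h m × EV n))} = univ := by
    ext; simp
  rw [h2] at h1
  exact contDiffOn_univ.1 h1

theorem contDiff_Log (x : XM h m) : ContDiff ℝ ∞ (Log h m x) := by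
  have h1 := (jc_Log h m).smooth x
  have h2 : {u : EV n | (x, u) ∈ (univ : Set (XM h m × EV n))} = univ := by
    ext; simp
  rw [h2] at h1
  exact contDiffOn_univ.1 h1

end Main

end Vale.Agent.P207.N3.H566
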