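import Vale.Agent.P207.N3.H566.Lift
import Vale.Agent.P207.N3.H862.JC
import Mathlib.Analysis.Calculus.InverseFunctionTheorem.ContDiff

/-!
# P207 / N3 (helper566): the smooth structure of the frames of a covering space

`A = EV n` and `p : EV n → M` is a smooth local diffeomorphism. `difX`: the plots of `XF g p`;
the lifts of the horizontal flows, the rotations and the deck transformations are smooth along
plots. `Exp hc x u`: the exponential map of the covering space in the frame `x`.
-/

open scoped Manifold ContDiff ENNReal Topology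
open Bundle MeasureTheory Set Filter Topology

noncomputable section

set_option maxSynthPendingDepth 3
set_option linter.unusedSectionVars false

namespace Vale.Agent.P207.N3.H566

open Vale.Agent.P255 (RMetric coefIn Gam Riem IsGeo Metric Npc ExpSys toMetric geo expg cc trans
  IsGeodesic coefL chris chrisB IsMetricOn covD)
open Vale.Agent.P207 Vale.Agent.P207.Q Vale.Agent.P207.Q.Fl
open Vale.Agent.P207.N3.H465 (Deck PB)

section Inv

variable {E V W : Type*} [NormedAddCommGroup V] [NormedSpace ℝ V] [NormedAddCommGroup W]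
  [NormedSpace ℝ W] [CompleteSpace V] [NormedAddCommGroup E] [NormedSpace ℝ E]

/-- a continuous map is smooth if its composition with a local diffeomorphism is smooth -/
theorem contDiffAt_of_comp {F : V → W} {u : E → V} {y : E} (hu : ContinuousAt u y)
    (hF : ContDiffAt ℝ ∞ F (u y)) {L : V ≃L[ℝ] W}
    (hL : HasFDerivAt F (L : V →L[ℝ] W) (u y))
    (h : ContDiffAt ℝ ∞ (fun z => F (u z)) y) : ContDiffAt ℝ ∞ u y := by
  have hn : (∞ : WithTop ℕ∞) ≠ 0 := by simp
  have h1 := hF.to_localInverse hL hn
  have h2 : ContDiffAt ℝ ∞ (fun z => hF.localInverse hL hn (F (u z))) y :=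
    ContDiffAt.comp (g := hF.localInverse hL hn) y h1 h
  refine h2.congr_of_eventuallyEq ?_
  have h3 := (hF.hasStrictFDerivAt' hL hn).eventually_left_inverse
  filter_upwards [hu.eventually h3] with z hz
  exact hz.symm

end Inv

variable {n : ℕ} {M : Type} [TopologicalSpace M] [ChartedSpace (EV n) M]

/-- `p` is a smooth local diffeomorphism -/
structure LocDif (p : EV n → M) : Prop where
  cont : Continuous p
  smooth : ∀ (a : M) (q : EV n), p q ∈ (chartAt (EV n) a).source →
    ContDiffAt ℝ ∞ (fun z => chartAt (EV n) a (p z)) q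
  inv : ∀ (a : M) (q : EV n), p q ∈ (chartAt (EV n) a).source →
    ∃ L : EV n ≃L[ℝ] EV n, HasFDerivAt (fun z => chartAt (EV n) a (p z)) (L : EV n →L[ℝ] EV n) q

theorem LocDif.sm {p : EV n → M} (hp : LocDif p) {a : M} {q : EV n}
    (hq : p q ∈ (chartAt (EV n) a).source) : Sm (fun z => chartAt (EV n) a (p z)) q := by
  filter_upwards [hp.cont.continuousAt.eventually ((chartAt (EV n) a).open_source.mem_nhds hq)]
    with z hz
  exact hp.smooth a z hz

theorem LocDif.sm_of_comp {p : EV n → M} (hp : LocDif p) {E : Type} [NormedAddCommGroup E]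
    [NormedSpace ℝ E] {u : E → EV n} {y : E} {a : M} (hu : ∀ᶠ z in 𝓝 y, ContinuousAt u z)
    (ha : p (u y) ∈ (chartAt (EV n) a).source)
    (h : Sm (fun z => chartAt (EV n) a (p (u z))) y) : Sm u y := by
  have h1 : ∀ᶠ z in 𝓝 y, p (u z) ∈ (chartAt (EV n) a).source :=
    (hp.cont.continuousAt.comp hu.self_of_nhds).eventually
      ((chartAt (EV n) a).open_source.mem_nhds ha)
  filter_upwards [hu, h, h1] with z hz1 hz2 hz3
  obtain ⟨L, hL⟩ := hp.inv a (u z) hz3
  exact contDiffAt_of_comp (F := fun w => chartAt (EV n) a (p w)) hz1 (hp.smooth a (u z) hz3) hL hz2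

variable [IsManifold 𝓘(ℝ, EV n) ∞ M] {g : RMetric (EV n) M} {p : EV n → M}

section Dif

variable [Nonempty (Fr g)] [NeZero n]

variable (g p) in
/-- the plots of the frames of the covering space -/
def difX : Dif (XF g p) where
  At u x := Sm (fun y => (u y).q) x ∧ (frSys g).dif.At (fun y => (u y).f) x
  open' h := h.1.eventually.and ((frSys g).dif.open' h.2)
  congr h hv := ⟨h.1.congr (hv.fun_comp PB.q), (frSys g).dif.congr h.2 (hv.fun_comp PB.f)⟩
  comp {E F} _ _ _ _ _ _ u k x h hg :=
    ⟨h.1.comp hg, (frSys g).dif.comp (u := fun y => (u y).f) (g := k) h.2 hg⟩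

theorem difX_cont {E : Type} [NormedAddCommGroup E] [NormedSpace ℝ E] [FiniteDimensional ℝ E]
    {u : E → XF g p} {y : E} (h : (difX g p).At u y) : ContinuousAt u y :=
  XF.continuousAt_of h.1.continuousAt ((frSys g).at_cont h.2)

theorem map_q : (difX g p).Map (Dif.lin (EV n)) (fun x : XF g p => x.q) := fun h => h.1

theorem map_f : (difX g p).Map (frSys g).dif (fun x : XF g p => x.f) := fun h => h.2

theorem chF_fst (a : M) (f : Fr g) : (chF a f.1).1 = chartAt (EV n) a f.pt := rfl

/-- a plot of frames in the chart at `a` -/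
theorem sm_chF {E : Type} [NormedAddCommGroup E] [NormedSpace ℝ E] [FiniteDimensional ℝ E]
    {u : E → Fr g} {y : E} (h : (frSys g).dif.At u y) {a : M}
    (ha : (u y).pt ∈ (chartAt (EV n) a).source) : Sm (fun z => chF a (u z).1) y := by
  have h1 : ∀ᶠ z in 𝓝 y, (u z).pt ∈ (chartAt (EV n) a).source :=
    ((frSys g).at_cont h).eventually
      (((chartAt (EV n) a).open_source.preimage Fr.continuous_pt).mem_nhds ha)
  filter_upwards [h1, h] with z hz1 hz2
  exact hz2.2 a hz1

/-- the foot points of a plot of frames in the chart at `a` -/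
theorem sm_pt {E : Type} [NormedAddCommGroup E] [NormedSpace ℝ E] [FiniteDimensional ℝ E]
    {u : E → Fr g} {y : E} (h : (frSys g).dif.At u y) {a : M}
    (ha : (u y).pt ∈ (chartAt (EV n) a).source) :
    Sm (fun z => chartAt (EV n) a (u z).pt) y := (sm_chF h ha).fst

/-- a map into the frames of the covering is a plot if it is continuous and its frames are -/
theorem difX_of (hp : LocDif p) {E : Type} [NormedAddCommGroup E] [NormedSpace ℝ E]
    [FiniteDimensional ℝ E] {u : E → XF g p} {y : E}
    (hc : ∀ᶠ z in 𝓝 y, ContinuousAt (fun z => (u z).q) z)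
    (hf : (frSys g).dif.At (fun z => (u z).f) y) : (difX g p).At u y := by
  refine ⟨?_, hf⟩
  have ha : (u y).f.pt ∈ (chartAt (EV n) (u y).f.pt).source := mem_chart_source _ _
  have h1 : Sm (fun z => chartAt (EV n) (u y).f.pt (u z).f.pt) y := sm_pt hf ha
  refine hp.sm_of_comp (a := (u y).f.pt) hc ?_ ?_
  · have h2 : p (u y).q = (u y).f.pt := PB.e_q (u y)
    rw [h2]
    exact ha
  · have h2 : (fun z => chartAt (EV n) (u y).f.pt (p (u z).q)) =
        fun z => chartAt (EV n) (u y).f.pt (u z).f.pt := by
      funext z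
      have h3 : p (u z).q = (u z).f.pt := PB.e_q (u z)
      rw [h3]
    rw [h2]
    exact h1

open Classical in
/-- the local section -/
def secX (x₀ : XF g p) (y : EV n × (Fin n → EV n)) : XF g p :=
  if h : p y.1 = (invF g x₀.f.pt (gsSt ((mt g).coef x₀.f.pt)
      (chartAt (EV n) x₀.f.pt (p y.1), y.2))).pt then PB.mk y.1 _ h else x₀

theorem secX_eq (x₀ : XF g p) {y : EV n × (Fin n → EV n)}
    (h : p y.1 = (invF g x₀.f.pt (gsSt ((mt g).coef x₀.f.pt)
      (chartAt (EV n) x₀.f.pt (p y.1), y.2))).pt) : secX x₀ y = PB.mk y.1 _ h := dif_pos h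

theorem pt_invF (a : M) {m : M} {v : Fin n → EV n} (hm : m ∈ (chartAt (EV n) a).source)
    (h : (chartAt (EV n) a m, v) ∈ gsDom ((mt g).coef a) (chartAt (EV n) a).target) :
    (invF g a (gsSt ((mt g).coef a) (chartAt (EV n) a m, v))).pt = m := by
  have ho := orth_gsSt ((mt g).isMetricOn a) h
  have h1 := chF_invF g a (gsSt ((mt g).coef a) (chartAt (EV n) a m, v)) h.1 ho
  have h2 := invF_pt g a (gsSt ((mt g).coef a) (chartAt (EV n) a m, v)) h.1 ho
  have h3 := congrArg Prod.fst h1
  rw [chF_fst] at h3
  exact (chartAt (EV n) a).injOn h2 hm h3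

theorem sec_difX (hp : LocDif p) : Sec (difX g p) := by
  intro x₀
  set a : M := x₀.f.pt with ha
  have hx₀ : p x₀.q = a := PB.e_q x₀
  have ha0 : x₀.f.pt ∈ (chartAt (EV n) a).source := mem_chart_source _ _
  refine ⟨EV n × (Fin n → EV n), inferInstance, inferInstance, inferInstance,
    fun x => (x.q, (chF a x.f.1).2), secX x₀, ?_, ?_⟩
  · set y₀ : EV n × (Fin n → EV n) := (x₀.q, (chF a x₀.f.1).2) with hy₀
    have hg0 : (chartAt (EV n) a (p y₀.1), y₀.2) ∈
        gsDom ((mt g).coef a) (chartAt (EV n) a).target := by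
      have h1 : (chartAt (EV n) a (p y₀.1), y₀.2) = chF a x₀.f.1 := by
        refine Prod.ext ?_ rfl
        rw [chF_fst]
        change chartAt (EV n) a (p x₀.q) = _
        rw [hx₀]
      rw [h1]
      exact mem_gsDom_chF a x₀.f ha0
    have hp0 : p y₀.1 ∈ (chartAt (EV n) a).source := by
      change p x₀.q ∈ _
      rw [hx₀]
      exact mem_chart_source _ _
    have hsm : Sm (fun y : EV n × (Fin n → EV n) => (chartAt (EV n) a (p y.1), y.2)) y₀ := by
      refine Sm.prodMk ?_ (Sm.of_contDiff contDiff_snd _)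
      exact Sm.comp (f := fun z => chartAt (EV n) a (p z)) (g := Prod.fst) (hp.sm hp0)
        (Sm.of_contDiff contDiff_fst _)
    have hev : ∀ᶠ y in 𝓝 y₀, p y.1 = (invF g a (gsSt ((mt g).coef a)
        (chartAt (EV n) a (p y.1), y.2))).pt := by
      have h1 : ∀ᶠ y in 𝓝 y₀, (chartAt (EV n) a (p y.1), y.2) ∈
          gsDom ((mt g).coef a) (chartAt (EV n) a).target :=
        hsm.continuousAt.eventually ((isOpen_gsDom ((mt g).isMetricOn a)).mem_nhds hg0)
      have h2 : ∀ᶠ y in 𝓝 y₀, p y.1 ∈ (chartAt (EV n) a).source :=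
        (hp.cont.comp continuous_fst).continuousAt.eventually
          ((chartAt (EV n) a).open_source.mem_nhds hp0)
      filter_upwards [h1, h2] with y hy1 hy2
      exact (pt_invF a hy2 hy1).symm
    refine ⟨?_, ?_⟩
    · refine (Sm.of_contDiff contDiff_fst y₀).congr ?_
      filter_upwards [hev] with y hy
      rw [secX_eq x₀ hy]
      rfl
    · have h1 : (frSys g).dif.At (fun y : EV n × (Fin n → EV n) =>
          invF g a (gsSt ((mt g).coef a) (chartAt (EV n) a (p y.1), y.2))) y₀ :=
        (frSys g).dif.comp (u := fun z => invF g a (gsSt ((mt g).coef a) z))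
          (g := fun y : EV n × (Fin n → EV n) => (chartAt (EV n) a (p y.1), y.2))
          (at_retr a hg0) hsm
      refine (frSys g).dif.congr h1 ?_
      filter_upwards [hev] with y hy
      rw [secX_eq x₀ hy]
      rfl
  · have h1 : ∀ᶠ x : XF g p in 𝓝 x₀, x.f.pt ∈ (chartAt (EV n) a).source :=
      (Fr.continuous_pt.comp PB.continuous_f).continuousAt.eventually
        ((chartAt (EV n) a).open_source.mem_nhds ha0)
    filter_upwards [h1] with x hx
    have hpx : p x.q = x.f.pt := PB.e_q x
    refine ⟨?_, ?_⟩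
    · have h2 : ContinuousAt (fun x : XF g p => chF a x.f.1) x :=
        ContinuousAt.comp (g := fun f : Fr g => chF a f.1) (f := fun x : XF g p => x.f)
          ((frSys g).contAt_c (i := a) hx) PB.continuous_f.continuousAt
      exact PB.continuous_q.continuousAt.prodMk h2.snd
    · have h3 : (chartAt (EV n) a (p x.q), (chF a x.f.1).2) = chF a x.f.1 := by
        refine Prod.ext ?_ rfl
        rw [chF_fst, hpx]
      have h4 : invF g a (gsSt ((mt g).coef a)
          (chartAt (EV n) a (p x.q), (chF a x.f.1).2)) = x.f := by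
        rw [h3]
        exact retr_chF a x.f hx
      have h5 : p ((x.q, (chF a x.f.1).2) : EV n × (Fin n → EV n)).1 =
          (invF g x₀.f.pt (gsSt ((mt g).coef x₀.f.pt)
          (chartAt (EV n) x₀.f.pt (p ((x.q, (chF a x.f.1).2) : EV n × (Fin n → EV n)).1),
          ((x.q, (chF a x.f.1).2) : EV n × (Fin n → EV n)).2))).pt := by
        change p x.q = (invF g a (gsSt ((mt g).coef a)
          (chartAt (EV n) a (p x.q), (chF a x.f.1).2))).pt
        rw [h4]
        exact hpx
      rw [secX_eq x₀ h5]
      exact PB.ext rfl h4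

end Dif

/-! ### the maps of the covering space -/

section Maps

variable [Nonempty (Fr g)] [NeZero n] [CompactSpace M] [T2Space M]

/-- the lifts are plot-smooth -/
theorem lift_plot (hp : LocDif p) (hc : IsCoveringMap p) {E : Type} [NormedAddCommGroup E]
    [NormedSpace ℝ E] [FiniteDimensional ℝ E] {u : E → XF g p} {ξ : E → Fin n → ℝ} {y : E}
    (hu : (difX g p).At u y) (hξ : Sm ξ y) :
    (difX g p).At (fun z => lift hc (ξ z) (u z)) y := by
  refine difX_of hp ?_ ?_
  · filter_upwards [(difX g p).open' hu, hξ.eventually] with z hz1 hz2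
    have h1 : ContinuousAt (fun z => (ξ z, u z)) z := hz2.continuousAt.prodMk (difX_cont hz1)
    exact ContinuousAt.comp (g := fun q : (Fin n → ℝ) × XF g p => (lift hc q.1 q.2).q)
      (PB.continuous_q.comp (continuous_lift hc)).continuousAt h1
  · simp only [f_lift]
    exact hflow_plot g hu.2 hξ

theorem map_lift (hp : LocDif p) (hc : IsCoveringMap p) :
    ((Dif.lin (Fin n → ℝ)).prod (difX g p)).Map (difX g p)
      (fun q : (Fin n → ℝ) × XF g p => lift hc q.1 q.2) :=
  fun h => lift_plot hp hc h.2 h.1

theorem map_lift_right (hp : LocDif p) (hc : IsCoveringMap p) (ξ : Fin n → ℝ) :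
    (difX g p).Map (difX g p) (fun x : XF g p => lift hc ξ x) :=
  fun h => lift_plot hp hc h (Sm.const ξ _)

end Maps

section Maps2

variable [Nonempty (Fr g)] [NeZero n]

/-- the rotations with parameters are plot-smooth -/
theorem rot_plot {E : Type} [NormedAddCommGroup E] [NormedSpace ℝ E] [FiniteDimensional ℝ E]
    {u : E → XF g p} {B : E → Fr.On n} {y : E} (hu : (difX g p).At u y)
    (hB : ∀ i j, Sm (fun z => (B z).1 i j) y) : (difX g p).At (fun z => XF.rot (B z) (u z)) y := by
  refine ⟨hu.1, ?_⟩
  have hm : ((frSys g).dif.At (fun z => Fr.rot (B z) (u z).f) y) := by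
    -- through the parametrised version
    have h1 : ∀ᶠ z in 𝓝 y, ∀ i j, ContDiffAt ℝ ∞ (fun z => (B z).1 i j) z :=
      eventually_all.2 fun i => eventually_all.2 fun j => hB i j
    refine (frSys g).at_of ?_
    filter_upwards [h1, hu.2] with z hz1 hz2
    have hAc : ContinuousAt (fun z => B z) z := by
      refine IsInducing.subtypeVal.continuousAt_iff.2 ?_
      exact continuousAt_pi.2 fun i => continuousAt_pi.2 fun j => (hz1 i j).continuousAt
    refine ⟨ContinuousAt.comp (g := fun q : Fr.On n × Fr g => Fr.rot q.1 q.2)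
      (f := fun z => (B z, (u z).f)) Fr.continuous_rot.continuousAt (hAc.prodMk hz2.1),
      (u z).f.pt, ?_, ?_⟩
    · exact mem_chart_source (EV n) (u z).f.pt
    · have h4 : ContDiffAt ℝ ∞ (fun w => chF (u z).f.pt (u w).f.1) z :=
        hz2.2 (u z).f.pt (mem_chart_source (EV n) (u z).f.pt)
      have h5 : ∀ w, (frSys g).c (u z).f.pt (Fr.rot (B w) (u w).f) =
          ((chF (u z).f.pt (u w).f.1).1,
            fun j => ∑ i, (B w).1 i j • (chF (u z).f.pt (u w).f.1).2 i) := fun w =>
        chF_mulR (u z).f.pt (B w).1 (u w).f.1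
      change ContDiffAt ℝ ∞ (fun w => (frSys g).c (u z).f.pt (Fr.rot (B w) (u w).f)) z
      rw [funext h5]
      refine h4.fst.prodMk ?_
      rw [contDiffAt_pi]
      intro j
      refine ContDiffAt.sum fun i _ => ?_
      exact (hz1 i j).smul (contDiffAt_pi.1 h4.snd i)
  exact hm

theorem map_rotX (B : Fr.On n) : (difX g p).Map (difX g p) (fun x : XF g p => XF.rot B x) :=
  fun h => rot_plot h fun _ _ => Sm.const _ _

/-- the deck transformations are smooth -/
theorem deck_plot (hp : LocDif p) (γ : Deck p) {E : Type} [NormedAddCommGroup E]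
    [NormedSpace ℝ E] [FiniteDimensional ℝ E] {u : E → XF g p} {y : E}
    (hu : (difX g p).At u y) : (difX g p).At (fun z => γ • u z) y := by
  refine difX_of hp ?_ ?_
  · filter_upwards [(difX g p).open' hu] with z hz
    exact ContinuousAt.comp (g := fun x : XF g p => (γ • x).q)
      (PB.continuous_q.comp (PB.continuous_smul γ)).continuousAt (difX_cont hz)
  · exact hu.2

theorem map_deck (hp : LocDif p) (γ : Deck p) :
    (difX g p).Map (difX g p) (fun x : XF g p => γ • x) := fun h => deck_plot hp γ h

end Maps2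

/-- the deck transformations are smooth -/
theorem contDiff_deck (hp : LocDif p) (γ : Deck p) : ContDiff ℝ ∞ (fun q : EV n => γ • q) := by
  rw [contDiff_iff_contDiffAt]
  intro q
  have ha : p q ∈ (chartAt (EV n) (p q)).source := mem_chart_source _ _
  have h1 : Sm (fun q : EV n => γ • q) q := by
    refine hp.sm_of_comp (a := p q) ?_ ?_ ?_
    · exact Eventually.of_forall fun z => (Deck.continuous_smul γ).continuousAt
    · have h2 : p (γ • q) = p q := γ.2 q
      rw [h2]
      exact ha
    · have h2 : (fun z => chartAt (EV n) (p q) (p (γ • z))) =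
          fun z => chartAt (EV n) (p q) (p z) := by
        funext z
        have h3 : p (γ • z) = p z := γ.2 z
        rw [h3]
      rw [h2]
      exact hp.sm ha
  exact h1.contDiffAt

/-! ### the exponential maps -/

section Exp

variable [Nonempty (Fr g)] [NeZero n] [CompactSpace M] [T2Space M]

/-- the exponential map of the covering space in the frame `x` -/
def Exp (hc : IsCoveringMap p) (x : XF g p) (u : EV n) : EV n := (lift hc (fun i => u i) x).q

theorem Exp_zero (hc : IsCoveringMap p) (x : XF g p) : Exp hc x 0 = x.q := by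
  have h : (fun i => (0 : EV n) i) = (0 : Fin n → ℝ) := rfl
  rw [Exp, h, lift_zero]

theorem sm_coord {E : Type} [NormedAddCommGroup E] [NormedSpace ℝ E] {v : E → EV n} {y : E}
    (hv : Sm v y) : Sm (fun z => (fun i => v z i : Fin n → ℝ)) y := by
  have h1 : ContDiff ℝ ∞ (fun w : EV n => (fun i => w i : Fin n → ℝ)) := by
    rw [contDiff_pi]
    intro i
    exact (EuclideanSpace.proj i : EV n →L[ℝ] ℝ).contDiff
  exact Sm.comp (f := fun w : EV n => (fun i => w i : Fin n → ℝ)) (g := v)
    (Sm.of_contDiff h1 _) hv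

theorem smOn_Exp (hp : LocDif p) (hc : IsCoveringMap p) :
    SmOn (difX g p) (fun x u => Exp hc x u) univ :=
  fun hu hv _ => (lift_plot hp hc hu (sm_coord hv)).1

theorem continuous_Exp (hc : IsCoveringMap p) :
    Continuous fun q : XF g p × EV n => Exp hc q.1 q.2 := by
  have h1 : Continuous fun q : XF g p × EV n =>
      (((fun i => q.2 i), q.1) : (Fin n → ℝ) × XF g p) := by
    refine Continuous.prodMk ?_ continuous_fst
    exact continuous_pi fun i => (EuclideanSpace.proj i : EV n →L[ℝ] ℝ).continuous.comp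
      continuous_snd
  exact PB.continuous_q.comp ((continuous_lift hc).comp h1)

theorem Exp_deck (hc : IsCoveringMap p) (γ : Deck p) (x : XF g p) (u : EV n) :
    Exp hc (γ • x) u = γ • Exp hc x u := by
  rw [Exp, lift_deck, PB.q_smul, Exp]

end Exp

/-- functions which are smooth along plots are families with jointly continuous derivatives -/
theorem SmOn.jc {X : Type*} [TopologicalSpace X] {D : Dif X} {E W : Type} [NormedAddCommGroup E]
    [NormedSpace ℝ E] [FiniteDimensional ℝ E] [NormedAddCommGroup W] [NormedSpace ℝ W]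
    {F : X → E → W} {S : Set (X × E)} (hD : Sec D) (hF : SmOn D F S) (hS : IsOpen S) : JC F S :=
  ⟨hS, fun x => hF.contDiffOn hD x, fun k => hF.continuousOn hD k⟩

/-- **the exponential maps: jointly continuous derivatives** -/
theorem jc_Exp [Nonempty (Fr g)] [NeZero n] [CompactSpace M] [T2Space M] (hp : LocDif p)
    (hc : IsCoveringMap p) : JC (fun (x : XF g p) u => Exp hc x u) univ :=
  SmOn.jc (D := difX g p) (sec_difX hp) (smOn_Exp hp hc) isOpen_univ

end Vale.Agent.P207.N3.H566
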