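import Vale.Agent.P207.N3.H566.Hfl
import Vale.Agent.P207.N3.H465.Cov
import Mathlib.Topology.Homotopy.Lifting

/-!
# P207 / N3 (helper566): the frames of a covering space, and the lifts of the horizontal flows

`XF p g = {(q, f) | p q = pt f}` for a covering `p : A → M`; `lift ξ x` is the end point of the
lift of the horizontal curve `s ↦ hflow (s ξ) f`, `0 ≤ s ≤ 1`.
-/

open scoped Manifold ContDiff ENNReal Topology unitInterval
open Bundle MeasureTheory Set Filter Topology

noncomputable section

set_option maxSynthPendingDepth 3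
set_option linter.unusedSectionVars false

namespace Vale.Agent.P207.N3.H566

open Vale.Agent.P255 (RMetric coefIn Gam Riem IsGeo Metric Npc ExpSys toMetric geo expg cc trans
  IsGeodesic coefL chris chrisB IsMetricOn covD)
open Vale.Agent.P207 Vale.Agent.P207.Q Vale.Agent.P207.Q.Fl
open Vale.Agent.P207.N3.H465 (Deck PB)

variable {n : ℕ} {M : Type} [TopologicalSpace M] [ChartedSpace (EV n) M]
  [IsManifold 𝓘(ℝ, EV n) ∞ M] (g : RMetric (EV n) M) {A : Type} [TopologicalSpace A]
  (p : A → M)

/-- the orthonormal frames of the covering space -/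
abbrev XF : Type := PB p (Fr.pt (g := g))

namespace XF

variable {g p}

theorem p_q (x : XF g p) : p x.q = x.f.pt := x.2

theorem continuousAt_of {Y : Type*} [TopologicalSpace Y] {u : Y → XF g p} {y : Y}
    (h1 : ContinuousAt (fun z => (u z).q) y) (h2 : ContinuousAt (fun z => (u z).f) y) :
    ContinuousAt u y :=
  (IsInducing.subtypeVal.continuousAt_iff (f := u)).2 (h1.prodMk h2)

theorem continuous_of {Y : Type*} [TopologicalSpace Y] {u : Y → XF g p}
    (h1 : Continuous (fun z => (u z).q)) (h2 : Continuous (fun z => (u z).f)) :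
    Continuous u :=
  (IsInducing.subtypeVal.continuous_iff (f := u)).2 (h1.prodMk h2)

/-- the right action of the orthogonal group -/
def rot (B : Fr.On n) (x : XF g p) : XF g p := PB.mk x.q (Fr.rot B x.f) x.2

@[simp] theorem q_rot (B : Fr.On n) (x : XF g p) : (rot B x).q = x.q := rfl

@[simp] theorem f_rot (B : Fr.On n) (x : XF g p) : (rot B x).f = Fr.rot B x.f := rfl

theorem rot_rot (B C : Fr.On n) (x : XF g p) : rot C (rot B x) = rot (B * C) x :=
  PB.ext rfl (Fr.rot_rot B C x.f)

theorem rot_one (x : XF g p) : rot (1 : Fr.On n) x = x :=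
  PB.ext rfl (Fr.rot_one x.f)

theorem rot_smul (B : Fr.On n) (γ : Deck p) (x : XF g p) : rot B (γ • x) = γ • rot B x := rfl

theorem continuous_rot [NeZero n] : Continuous (fun q : Fr.On n × XF g p => rot q.1 q.2) := by
  refine continuous_of ?_ ?_
  · change Continuous (fun q : Fr.On n × XF g p => q.2.q)
    exact PB.continuous_q.comp continuous_snd
  · change Continuous (fun q : Fr.On n × XF g p => Fr.rot q.1 q.2.f)
    exact Fr.continuous_rot.comp (continuous_fst.prodMk (PB.continuous_f.comp continuous_snd))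

/-- two frames with the same foot point differ by a rotation -/
theorem exists_rot {x y : XF g p} (h : x.q = y.q) : ∃ B : Fr.On n, rot B x = y := by
  obtain ⟨B, hB⟩ := Fr.exists_rot (f := x.f) (f' := y.f) (by rw [← p_q, ← p_q, h])
  exact ⟨B, PB.ext h hB⟩

/-- if `M` is compact and the foot points are in a compact set, the frames are in a compact set -/
theorem isCompact_q [CompactSpace M] [T2Space M] [NeZero n] {K : Set A} (hK : IsCompact K)
    (hp : Continuous p) : IsCompact {x : XF g p | x.q ∈ K} := by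
  have h2 : IsCompact (K ×ˢ (univ : Set (Fr g))) := hK.prod isCompact_univ
  have h3 : {x : XF g p | x.q ∈ K} = Subtype.val ⁻¹' (K ×ˢ (univ : Set (Fr g))) := by
    ext x
    exact ⟨fun hx => ⟨hx, mem_univ _⟩, fun hx => hx.1⟩
  rw [h3]
  exact (PB.isClosedEmbedding_val hp Fr.continuous_pt).isCompact_preimage h2

end XF

/-! ### The lifts -/

section Lift

variable {g p} (hp : IsCoveringMap p)
variable [Nonempty (Fr g)] [NeZero n] [CompactSpace M] [T2Space M]

/-- the homotopy which is lifted -/
def ptH (g : RMetric (EV n) M) (p : A → M) [Nonempty (Fr g)] :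
    C(I × ((Fin n → ℝ) × XF g p), M) where
  toFun q := (hflow g ((q.1 : ℝ) • q.2.1) q.2.2.f).pt
  continuous_toFun := by
    refine Fr.continuous_pt.comp ((continuous_hflow g).comp (Continuous.prodMk ?_ ?_))
    · exact (continuous_subtype_val.comp continuous_fst).smul (continuous_fst.comp continuous_snd)
    · exact PB.continuous_f.comp (continuous_snd.comp continuous_snd)

/-- the foot point as a function of the parameters -/
def ftC (g : RMetric (EV n) M) (p : A → M) : C((Fin n → ℝ) × XF g p, A) where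
  toFun a := a.2.q
  continuous_toFun := PB.continuous_q.comp continuous_snd

theorem ptH_zero (a : (Fin n → ℝ) × XF g p) : ptH g p (0, a) = p (ftC g p a) := by
  change (hflow g ((0 : ℝ) • a.1) a.2.f).pt = p a.2.q
  rw [zero_smul, hflow_zero]
  exact (PB.e_q a.2).symm

include hp in
theorem lift_aux (ξ : Fin n → ℝ) (x : XF g p) :
    p (hp.liftHomotopy (ptH g p) (ftC g p) ptH_zero (1, (ξ, x))) = (hflow g ξ x.f).pt := by
  have h := congrFun (hp.liftHomotopy_lifts (ptH g p) (ftC g p) ptH_zero) (1, (ξ, x))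
  refine h.trans ?_
  change (hflow g (((1 : I) : ℝ) • ξ) x.f).pt = _
  rw [Set.Icc.coe_one, one_smul]

/-- the lift of the time-one map of the horizontal flow of direction `ξ` -/
@[irreducible] def lift (ξ : Fin n → ℝ) (x : XF g p) : XF g p :=
  PB.mk (hp.liftHomotopy (ptH g p) (ftC g p) ptH_zero (1, (ξ, x))) (hflow g ξ x.f)
    (lift_aux hp ξ x)

theorem f_lift (ξ : Fin n → ℝ) (x : XF g p) : (lift hp ξ x).f = hflow g ξ x.f := by
  unfold lift
  rfl

theorem q_lift (ξ : Fin n → ℝ) (x : XF g p) : (lift hp ξ x).q =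
    hp.liftHomotopy (ptH g p) (ftC g p) ptH_zero (1, (ξ, x)) := by
  unfold lift
  rfl

theorem continuous_lift : Continuous fun q : (Fin n → ℝ) × XF g p => lift hp q.1 q.2 := by
  refine XF.continuous_of ?_ ?_
  · simp only [q_lift]
    exact (hp.liftHomotopy (ptH g p) (ftC g p) ptH_zero).continuous.comp
      (continuous_const.prodMk continuous_id)
  · simp only [f_lift]
    exact (continuous_hflow g).comp (continuous_fst.prodMk (PB.continuous_f.comp continuous_snd))

/-- uniqueness of the lift -/
theorem lift_unique {ξ : Fin n → ℝ} {x : XF g p} {c : ℝ → A} (hc : Continuous c)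
    (h : ∀ s, p (c s) = (hflow g (s • ξ) x.f).pt) (h0 : c 0 = x.q) (t : ℝ) :
    (lift hp (t • ξ) x).q = c t := by
  have h1 := (hp.eq_liftHomotopy_iff (H := ptH g p) (f := ftC g p) ptH_zero
    (hp.liftHomotopy (ptH g p) (ftC g p) ptH_zero)).1 rfl
  have h2 : Continuous fun s : I => hp.liftHomotopy (ptH g p) (ftC g p) ptH_zero
    (s, (t • ξ, x)) := h1.1 _
  have h3 : Continuous fun s : I => c ((s : ℝ) * t) :=
    hc.comp (continuous_subtype_val.mul continuous_const)
  have h4 := hp.eq_of_comp_eq h2 h3 (by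
    funext s
    have h5 := congrFun h1.2.1 (s, (t • ξ, x))
    change p (hp.liftHomotopy (ptH g p) (ftC g p) ptH_zero (s, (t • ξ, x))) = _ at h5
    change p (hp.liftHomotopy (ptH g p) (ftC g p) ptH_zero (s, (t • ξ, x))) = p (c ((s : ℝ) * t))
    rw [h5, h]
    change (hflow g ((s : ℝ) • t • ξ) x.f).pt = _
    rw [smul_smul]) 0 (by
    have h5 := h1.2.2 (t • ξ, x)
    change hp.liftHomotopy (ptH g p) (ftC g p) ptH_zero (0, (t • ξ, x)) = c (((0 : I) : ℝ) * t)
    rw [h5, Set.Icc.coe_zero, zero_mul, h0]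
    rfl)
  have h5 := congrFun h4 1
  change hp.liftHomotopy (ptH g p) (ftC g p) ptH_zero (1, (t • ξ, x)) = c (((1 : I) : ℝ) * t) at h5
  rw [Set.Icc.coe_one, one_mul] at h5
  rw [q_lift]
  exact h5

theorem lift_unique' {ξ : Fin n → ℝ} {x : XF g p} {c : ℝ → XF g p}
    (hc : Continuous fun t => (c t).q) (h : ∀ s, (c s).f = hflow g (s • ξ) x.f)
    (h0 : (c 0).q = x.q) (t : ℝ) : lift hp (t • ξ) x = c t :=
  PB.ext (lift_unique hp hc (fun s => by rw [← h s]; exact PB.e_q (c s)) h0 t) (by rw [f_lift, h t])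

theorem lift_zero (x : XF g p) : lift hp 0 x = x := by
  have h := lift_unique' hp (ξ := 0) (x := x) (c := fun _ => x) continuous_const
    (fun s => by rw [smul_zero, hflow_zero]) rfl 0
  rwa [smul_zero] at h

theorem continuous_lift_smul (ξ : Fin n → ℝ) (x : XF g p) :
    Continuous fun t : ℝ => lift hp (t • ξ) x := by
  have h1 : Continuous fun t : ℝ => ((t • ξ, x) : (Fin n → ℝ) × XF g p) := by fun_prop
  exact (continuous_lift hp).comp h1

theorem lift_add (ξ : Fin n → ℝ) (s t : ℝ) (x : XF g p) :
    lift hp ((s + t) • ξ) x = lift hp (s • ξ) (lift hp (t • ξ) x) := by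
  have h1 : Continuous fun s : ℝ => (lift hp ((s + t) • ξ) x).q := by
    have h2 : Continuous fun s : ℝ => (((s + t) • ξ, x) : (Fin n → ℝ) × XF g p) := by fun_prop
    exact PB.continuous_q.comp ((continuous_lift hp).comp h2)
  have h3 : ∀ s : ℝ, (lift hp ((s + t) • ξ) x).f =
      hflow g (s • ξ) (lift hp (t • ξ) x).f := fun s => by
    rw [f_lift, f_lift, hflow_add]
  have h4 : (lift hp ((0 + t) • ξ) x).q = (lift hp (t • ξ) x).q := by rw [zero_add]
  exact (lift_unique' hp (x := lift hp (t • ξ) x) (c := fun s => lift hp ((s + t) • ξ) x)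
    h1 h3 h4 s).symm

theorem lift_neg (ξ : Fin n → ℝ) (x : XF g p) : lift hp (-ξ) (lift hp ξ x) = x := by
  have h := lift_add hp ξ (-1) 1 x
  rw [neg_add_cancel, zero_smul, lift_zero, neg_smul, one_smul] at h
  exact h.symm

theorem lift_rot (B : Fr.On n) (ξ : Fin n → ℝ) (x : XF g p) :
    lift hp ξ (XF.rot B x) = XF.rot B (lift hp (B.1.mulVec ξ) x) := by
  have h := lift_unique' hp (ξ := ξ) (x := XF.rot B x)
    (c := fun s => XF.rot B (lift hp (s • B.1.mulVec ξ) x))
    (by
      change Continuous fun s : ℝ => (lift hp (s • B.1.mulVec ξ) x).q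
      exact PB.continuous_q.comp (continuous_lift_smul hp (B.1.mulVec ξ) x)) (fun s => by
      rw [XF.f_rot, XF.f_rot, hflow_rot, f_lift, Matrix.mulVec_smul]) (by
      rw [XF.q_rot, XF.q_rot, zero_smul, lift_zero]) 1
  simpa only [one_smul] using h

theorem lift_deck (γ : Deck p) (ξ : Fin n → ℝ) (x : XF g p) :
    lift hp ξ (γ • x) = γ • lift hp ξ x := by
  have h := lift_unique' hp (ξ := ξ) (x := γ • x)
    (c := fun s => γ • lift hp (s • ξ) x)
    (by
      change Continuous fun s : ℝ => γ • (lift hp (s • ξ) x).q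
      exact (Deck.continuous_smul γ).comp
        (PB.continuous_q.comp (continuous_lift_smul hp ξ x))) (fun s => by
      rw [PB.f_smul, PB.f_smul, f_lift]) (by
      rw [PB.q_smul, PB.q_smul, zero_smul, lift_zero]) 1
  simpa only [one_smul] using h

/-- the flow of direction `ξ` -/
theorem lift_smul_smul (ξ : Fin n → ℝ) (s t : ℝ) (x : XF g p) :
    lift hp (s • ξ) (lift hp (t • ξ) x) = lift hp ((s + t) • ξ) x := (lift_add hp ξ s t x).symm

end Lift

end Vale.Agent.P207.N3.H566
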